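import Vale.Agent.P264.H489.Short

/-!
# P264 / H489 : the metrics (helper489)

For every `ε > 0` a `U(8)`-invariant Kähler form on `ℙ⁸`, equal to the Fubini-Study form outside the unit ball of an affine
chart, with `T_max < ε`.
-/

set_option linter.all false

open Set Filter Topology
open scoped ContDiff ENNReal

noncomputable section

namespace P264.H489

open P264.B P264.Geo P264.Geo.R

/-- normalisation: subtract an affine function -/
theorem shift {U₀ : ℝ → ℝ} (hU : IsInit U₀) (hflat : ∀ x : ℝ, 1 / 2 ≤ x → x < 1 → deriv (deriv U₀) x = 0) :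
    ∃ V : ℝ → ℝ, IsInit V ∧ (∀ x ∈ Icc (1 / 2 : ℝ) 1, V x = 0 ∧ deriv V x = 0) ∧
      ∀ (n : ℕ) (T : ℝ) (U φ : ℝ → ℝ → ℝ), IsFlowU n T V U φ → ∃ U' : ℝ → ℝ → ℝ, IsFlowU n T U₀ U' φ := by
  set b : ℝ := deriv U₀ (1 / 2) with hb
  set a : ℝ := U₀ (1 / 2) - b * (1 / 2) with ha
  set V : ℝ → ℝ := fun x => U₀ x - (a + b * x) with hV
  have hd0 : Differentiable ℝ U₀ := hU.smooth.differentiable (by simp)
  have hs1 : ContDiff ℝ ∞ (deriv U₀) := contDiff_deriv hU.smooth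
  have hd1 : Differentiable ℝ (deriv U₀) := hs1.differentiable (by simp)
  have hlin : ∀ x : ℝ, HasDerivAt (fun x : ℝ => a + b * x) b x := fun x => by
    simpa using ((hasDerivAt_id x).const_mul b).const_add a
  have hV1 : ∀ x, deriv V x = deriv U₀ x - b := fun x => ((hd0 x).hasDerivAt.sub (hlin x)).deriv
  have hV2 : ∀ x, deriv (deriv V) x = deriv (deriv U₀) x := fun x => by
    have e : deriv V = fun x => deriv U₀ x - b := funext hV1
    rw [e, deriv_sub_const]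
  have hVs : ContDiff ℝ ∞ V := hU.smooth.sub (contDiff_const.add (contDiff_const.mul contDiff_id))
  have hc1 : ∀ x ∈ Icc (1 / 2 : ℝ) 1, deriv U₀ x = deriv U₀ (1 / 2) := by
    refine constant_of_has_deriv_right_zero hs1.continuous.continuousOn ?_
    intro x hx
    have h := (hd1 x).hasDerivAt
    rw [hflat x hx.1 hx.2] at h
    exact h.hasDerivWithinAt
  have hc2 : ∀ x ∈ Icc (1 / 2 : ℝ) 1, V x = V (1 / 2) := by
    refine constant_of_has_deriv_right_zero hVs.continuous.continuousOn ?_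
    intro x hx
    have h := (hVs.differentiable (by simp) x).hasDerivAt
    rw [hV1, hc1 x ⟨hx.1, hx.2.le⟩, hb, sub_self] at h
    exact h.hasDerivWithinAt
  refine ⟨V, ⟨hVs, fun x hx => ?_⟩, fun x hx => ⟨?_, ?_⟩, ?_⟩
  · rw [hV2]
    exact hU.pos x hx
  · rw [hc2 x hx]
    simp only [hV, ha]
    ring
  · rw [hV1, hc1 x hx, hb, sub_self]
  · intro n T U φ hf
    refine ⟨fun t x => U t x + (a + b * x), ?_, hf.smooth, hf.profile, ?_, ?_, ?_⟩
    · exact hf.smoothU.add ((contDiff_const.add (contDiff_const.mul contDiff_snd)).contDiffOn)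
    · intro t ht x hx
      have hsl : ContDiffOn ℝ ∞ (U t) (Icc 0 1) := by
        have h1 : ContDiffOn ℝ ∞ (fun y : ℝ => ((t, y) : ℝ × ℝ)) (Icc 0 1) :=
          (contDiff_const.prodMk contDiff_id).contDiffOn
        exact hf.smoothU.comp h1 fun y hy => ⟨ht, hy⟩
      have hdiff : ∀ y ∈ Ioo (0 : ℝ) 1, HasDerivAt (U t) (deriv (U t) y) y := fun y hy =>
        ((hsl.contDiffAt (Icc_mem_nhds hy.1 hy.2)).differentiableAt (by simp)).hasDerivAt
      have e1 : deriv (fun x => U t x + (a + b * x)) =ᶠ[𝓝 x] fun y => deriv (U t) y + b := by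
        filter_upwards [Ioo_mem_nhds hx.1 hx.2] with y hy
        exact ((hdiff y hy).add (hlin y)).deriv
      have e2 : deriv (deriv (fun x => U t x + (a + b * x))) x = deriv (deriv (U t)) x := by
        rw [e1.deriv_eq, deriv_add_const]
      show φ t x * (deriv (deriv (fun x => U t x + (a + b * x))) x + 1 / x + 1 / (1 - x)) = 1
      rw [e2]
      exact hf.rel t ht x hx
    · intro t ht x hx
      exact (hf.flow t ht x hx).add_const _
    · intro x hx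
      show U 0 x + (a + b * x) = U₀ x
      rw [hf.init x hx]
      simp only [hV]
      ring

/-- outside the unit ball the metric is the Fubini-Study metric -/
theorem h0_fs {n : ℕ} {V : ℝ → ℝ} (hV : IsInit V) (hz : ∀ x ∈ Icc (1 / 2 : ℝ) 1, V x = 0 ∧ deriv V x = 0)
    {Z : Cm (n + 1)} (hZ : Z ≠ 0) (h : ‖Z 0‖ ^ 2 ≤ ∑ i : Fin n, ‖Z i.succ‖ ^ 2) : h0 V Z = ∑ i, ‖Z i‖ ^ 2 := by
  have hq := AB_mem hZ
  set A := ‖Z 0‖ ^ 2 with hA
  set B := ∑ i : Fin n, ‖Z i.succ‖ ^ 2 with hB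
  have hAB : AB Z = (A, B) := rfl
  have hA0 : 0 ≤ A := by positivity
  have hsum : 0 < A + B := hq.2.2
  have hx : B / (A + B) ∈ Icc (1 / 2 : ℝ) 1 := by
    constructor
    · rw [div_le_div_iff₀ (by norm_num) hsum]
      linarith
    · rw [div_le_one hsum]
      linarith
  have hxs : xs V (AB Z) = B / (A + B) := by
    refine xs_eq hV hq ⟨by linarith [hx.1], hx.2⟩ ?_
    simp only [G, hAB, (hz _ hx).2, Real.exp_zero]
    field_simp
    ring
  rw [Fin.sum_univ_succ]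
  show F V (AB Z, xs V (AB Z)) = A + B
  rw [hxs, hAB]
  simp only [F, (hz _ hx).1, (hz _ hx).2, mul_zero, Real.exp_zero, neg_zero, mul_one, one_mul]

/-- the geometric part -/
theorem noFlow {n : ℕ} (hn : 2 ≤ n) {V : ℝ → ℝ} (hV : IsInit V) {T : ℝ} (hT : 0 < T)
    (hno : ∀ U φ : ℝ → ℝ → ℝ, ¬ IsFlowU n T V U φ) :
    IsKahler n (h0 V : Cm (n + 1) → ℝ) ∧ Tmax n (h0 V : Cm (n + 1) → ℝ) ≤ ENNReal.ofReal T := by
  have hK : IsKahler n (h0 V : Cm (n + 1) → ℝ) := isKahler_h0 hV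
  refine ⟨hK, ?_⟩
  have hno' : ∀ c φ, ¬ IsCalabiFlow n (h0 V : Cm (n + 1) → ℝ) c T φ := by
    intro c φ hf
    have hinv := flow_inv hT hK hf (h0_inv V)
    obtain ⟨ψ, ψi, hR, hψ⟩ := radData_of_flow hn hT hK hf hinv
    have hp : HasPotR (ψ 0) V := by
      intro x hx
      have hq : 0 < x / (1 - x) * Real.exp (deriv V x) :=
        mul_pos (div_pos hx.1 (by linarith only [hx.2])) (Real.exp_pos _)
      have h1 := hψ 0 ⟨le_refl 0, hT.le⟩ (Real.sqrt (x / (1 - x) * Real.exp (deriv V x)))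
      rw [Real.sq_sqrt hq.le] at h1
      rw [h1]
      have hray : (ray (Real.sqrt (x / (1 - x) * Real.exp (deriv V x))) : Cm (n + 1)) ≠ 0 := by
        intro h2
        have h3 := congrFun h2 0
        simp [ray] at h3
      rw [hf.init _ hray, Real.exp_zero, mul_one]
      exact hasPot_h0 (by omega) hV x hx
    exact hno _ _ (flowU_of_radData hn hT hR hV hp)
  refine sSup_le ?_
  rintro T' ⟨c, φ, hf⟩
  by_contra hlt
  push Not at hlt
  have hsub : Icc 0 T ⊆ {t : ℝ | 0 ≤ t ∧ ENNReal.ofReal t < T'} := fun t ht =>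
    ⟨ht.1, lt_of_le_of_lt (ENNReal.ofReal_le_ofReal ht.2) hlt⟩
  exact hno' c φ
    { smooth := hf.smooth.mono (prod_mono_left hsub)
      homog := fun t ht => hf.homog t (hsub ht).1 (hsub ht).2
      init := hf.init
      kahler := fun t ht => hf.kahler t (hsub ht).1 (hsub ht).2
      flow := fun t ht k z => (hf.flow t (hsub ht).1 (hsub ht).2 k z).mono hsub }

/-- **Arbitrarily short existence times.** -/
theorem short (ε : ℝ≥0∞) (hε : 0 < ε) : ∃ h₀ : Cm 9 → ℝ, IsKahler 8 h₀ ∧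
    (∀ Z W : Cm 9, Z ≠ 0 → W ≠ 0 → ‖Z 0‖ = ‖W 0‖ → ∑ i : Fin 8, ‖Z i.succ‖ ^ 2 = ∑ i : Fin 8, ‖W i.succ‖ ^ 2 →
      h₀ Z = h₀ W) ∧
    (∀ Z : Cm 9, Z ≠ 0 → ‖Z 0‖ ^ 2 ≤ ∑ i : Fin 8, ‖Z i.succ‖ ^ 2 → h₀ Z = ∑ i, ‖Z i‖ ^ 2) ∧
    Tmax 8 h₀ < ε := by
  obtain ⟨δ, hδ, hδε⟩ : ∃ δ : ℝ, 0 < δ ∧ ENNReal.ofReal δ ≤ ε := by
    rcases eq_or_ne ε ⊤ with h | h
    · exact ⟨1, one_pos, by rw [h]; exact le_top⟩
    · exact ⟨ε.toReal, ENNReal.toReal_pos hε.ne' h, (ENNReal.ofReal_toReal h).le⟩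
  obtain ⟨U₀, hU, hflat, T, hT, hTδ, hno⟩ := P264.Prof.short8 hδ
  obtain ⟨V, hV, hz, hsh⟩ := shift hU hflat
  obtain ⟨hK, hT2⟩ := noFlow (n := 8) (by norm_num) hV hT fun U φ hf => by
    obtain ⟨U', hf'⟩ := hsh 8 T U φ hf
    exact hno U' φ hf'
  refine ⟨h0 V, hK, h0_inv V, fun Z hZ h => h0_fs hV hz hZ h, ?_⟩
  exact lt_of_lt_of_le (lt_of_le_of_lt hT2 ((ENNReal.ofReal_lt_ofReal_iff hδ).2 hTδ)) hδε

end P264.H489

end
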