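import Vale.Agent.P264.Bdl.B4

/-!
# P264 / H489 : arbitrarily short existence times (helper489)

The certificate of `P264` works for every small blow-up time, and the initial data are those of the Fubini-Study metric
outside the unit ball.
-/

set_option linter.all false

section

open MeasureTheory Set Filter Topology Real
open scoped ContDiff

namespace P264.B

/-- **The hypothesis `hdata` of the final assembly**, from a family with soft bounds. -/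
theorem hdata_fam {R ρ : ℝ → ℝ} {Rmin α z₀ : ℝ} (hR : Profile R Rmin α)
    {psi : Fin 2 → ℝ → ℝ} (hψfar : ∀ i z, z₀ ≤ z → psi i z = 0)
    {m : (Fin 2 → ℝ) → ℝ → ℝ} {e : Fin 2 → ℝ → ℝ} {A Ns M : ℝ}
    (hm : ∀ b, ContDiff ℝ ∞ (m b))
    (hout : ∃ Z, ∀ b z, z ≤ -Z ∨ Z ≤ z → m b z = 1 / R z)
    {c₀ B : ℝ} (hc₀ : 0 < c₀) (hMB : ∀ b, (∀ i, |b i| ≤ A) → MBound c₀ B (m b))
    (hmass : ∀ b i, ∫ z, psi i z * (m b z - 1 / R z) = b i)
    (hlin : ∀ b b' z, m b z - m b' z = ∑ j, (b j - b' j) * e j z)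
    (hes : ∀ j, ContDiff ℝ ∞ (e j)) (hec : ∀ j, HasCompactSupport (e j))
    (hNN : ∀ b, (∀ i, |b i| ≤ A) → NN ρ (fun z => 1 / m b z - R z) ≤ Ns / 2)
    (hblock : ∀ b, (∀ i, |b i| ≤ A) → ∀ z, z₀ - 1 ≤ z →
      om (fun z => 1 / m b z - R z) z ^ 2 ≤ M / 8) :
    ∀ (χ : ℝ → ℝ) (X c₁ : ℝ), Cutoff χ X → X ≤ 1 / 8 → exp (c₁ + 5 / 3) ≤ X / 2 →
      ∃ EA Z T₁ : ℝ, 0 < T₁ ∧ 0 ≤ EA ∧ ∀ s₀ : ℝ, exp (-s₀) ≤ T₁ →
        ∃ (CL : ℝ) (U₀ : (Fin 2 → ℝ) → ℝ → ℝ),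
          DataFam χ R ρ psi (exp (-s₀)) s₀ z₀ c₁ A Ns M EA Z CL U₀ ∧
            ∀ b : Fin 2 → ℝ, (∀ i, |b i| ≤ A) → ∀ x : ℝ, 1 / 2 ≤ x → x < 1 → deriv (deriv (U₀ b)) x = 0 := by
  intro χ X c₁ hχ hX8 hc₁
  obtain ⟨Z, hZ⟩ := hout
  obtain ⟨p, hp0, Zl, hZl⟩ := hR.left
  have hR0 : ∀ z, 0 < R z := fun z => hR.Rmin_pos.trans_le (hR.lower z)
  have hXp := hχ.X_pos
  have hpos : ∀ b, (∀ i, |b i| ≤ A) → ∀ z, 0 < m b z := fun b hb z =>
    hc₀.trans_le ((hMB b hb).low z)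
  obtain ⟨C, hC0, hC⟩ := exists_scal_bound (c₀ := c₀) (B := B) hc₀
  -- bound for the directions
  choose E hE using fun j => (hec j).exists_bound_of_continuous (hes j).continuous
  have hE0 : ∀ j, 0 ≤ E j := fun j => (norm_nonneg _).trans (hE j 0)
  set Es := ∑ j, E j with hEs
  have hEs0 : 0 ≤ Es := Finset.sum_nonneg fun j _ => hE0 j
  have hdiff : ∀ b b' z, |m b z - m b' z| ≤ Es * ‖b - b'‖ := by
    intro b b' z
    rw [hlin]
    refine (Finset.abs_sum_le_sum_abs _ _).trans ?_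
    rw [hEs, Finset.sum_mul]
    apply Finset.sum_le_sum
    intro j _
    rw [abs_mul, mul_comm]
    refine mul_le_mul ?_ ?_ (abs_nonneg _) (hE0 j)
    · have := hE j z
      rwa [Real.norm_eq_abs] at this
    · have := norm_le_pi_norm (b - b') j
      rwa [Real.norm_eq_abs, Pi.sub_apply] at this
  -- smallness of `T`
  set κ := X / (2 * exp (max Z z₀)) with hκ
  have hκ0 : 0 < κ := by positivity
  refine ⟨C ^ 2, Z, κ ^ 2, by positivity, by (clear * -; positivity), ?_⟩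
  intro s₀ hs₀
  set T := exp (-s₀) with hT
  have hT0 : 0 < T := exp_pos _
  set ℓ := √T with hℓ
  have hℓ0 : 0 < ℓ := Real.sqrt_pos.2 hT0
  have hℓe : ℓ = exp (-s₀ / 2) := by
    rw [hℓ, hT, Real.sqrt_eq_iff_mul_self_eq (exp_pos _).le (exp_pos _).le, ← exp_add]
    congr 1; ring
  have hℓκ : ℓ ≤ κ := by
    rw [hℓ]
    calc √T ≤ √(κ ^ 2) := Real.sqrt_le_sqrt hs₀
      _ = κ := Real.sqrt_sq hκ0.le
  have hxx : ∀ z, xx s₀ z = exp z * ℓ := by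
    intro z
    rw [hℓe, xx, ← exp_add]
    congr 1; ring
  have hxl : ∀ z, log (xx s₀ z / ℓ) = z := by
    intro z
    rw [hxx, mul_div_assoc, div_self hℓ0.ne', mul_one, log_exp]
  have hxsmall : ∀ z, z ≤ max Z z₀ → xx s₀ z ≤ X / 2 := by
    intro z hz
    rw [hxx]
    calc exp z * ℓ ≤ exp (max Z z₀) * κ :=
          mul_le_mul (exp_le_exp.2 hz) hℓκ hℓ0.le (exp_pos _).le
      _ = X / 2 := by rw [hκ]; (clear * - hXp; field_simp)
  -- the initial data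
  have hex : ∀ b, (∀ i, |b i| ≤ A) → ∃ U₀ : ℝ → ℝ, IsInit U₀ ∧ U₀ 0 = 0 ∧ deriv U₀ 0 = 0 ∧
      ∀ x, 0 < x → x < 1 → deriv (deriv U₀) x
        = chi0 x * ((m b (log (x / ℓ)) - 1) / x - 1 / (1 - x)) := by
    intro b hb
    refine exists_U0 (hm b) (hpos b hb) hp0 (Z := min (-Z) Zl) ?_ hℓ0
    intro z hz
    rw [hZ b z (Or.inl (hz.trans (min_le_left _ _))), hZl z (hz.trans (min_le_right _ _))]
  classical
  set U₀ : (Fin 2 → ℝ) → ℝ → ℝ := fun b =>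
    if hb : ∀ i, |b i| ≤ A then Classical.choose (hex b hb) else fun _ => 0 with hU₀
  have hspec : ∀ b, (∀ i, |b i| ≤ A) → IsInit (U₀ b) ∧ U₀ b 0 = 0 ∧ deriv (U₀ b) 0 = 0 ∧
      ∀ x, 0 < x → x < 1 → deriv (deriv (U₀ b)) x
        = chi0 x * ((m b (log (x / ℓ)) - 1) / x - 1 / (1 - x)) := by
    intro b hb
    have e : U₀ b = Classical.choose (hex b hb) := by
      simp only [hU₀]
      rw [dif_pos hb]
    rw [e]
    exact Classical.choose_spec (hex b hb)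
  -- the solution at the initial time
  have htt : tt T s₀ = 0 := by unfold tt; rw [← hT]; ring
  have hHH : ∀ b, (∀ i, |b i| ≤ A) → ∀ U φ, IsFlowU 8 T (U₀ b) U φ →
      ∀ z, xx s₀ z ≤ 1 / 4 → HH φ T s₀ z = 1 / m b z := by
    intro b hb U φ H z hz
    unfold HH
    rw [htt, h_init hT0 H (hspec b hb).2.2.2 (show 0 < xx s₀ z from exp_pos _) hz, hxl]
  have hGG : ∀ b, (∀ i, |b i| ≤ A) → ∀ U φ, IsFlowU 8 T (U₀ b) U φ →
      GG χ R φ T s₀ = fun z => 1 / m b z - R z := by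
    intro b hb U φ H
    funext z
    unfold GG WW
    rcases le_or_gt (xx s₀ z) (X / 2) with h | h
    · rw [hχ.one _ h, one_mul, hHH b hb U φ H z (by linarith only [hX8, h])]
    · have hz : max Z z₀ < z := by
        by_contra hcon
        push Not at hcon
        exact absurd (hxsmall z hcon) (not_le.2 h)
      have hz' : Z ≤ z := (le_max_left _ _).trans hz.le
      have e1 : 1 / m b z - R z = 0 := by
        rw [hZ b z (Or.inr hz'), one_div_one_div, sub_self]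
      rw [e1]
      rcases le_or_gt (xx s₀ z) (1 / 4) with h' | h'
      · rw [hHH b hb U φ H z h', e1, mul_zero]
      · rw [hχ.zero _ (by linarith only [hX8, h']), zero_mul]
  refine ⟨Es * exp Z / ℓ, U₀, ⟨?_, ?_, ?_, ?_, ?_, ?_, ?_⟩, ?_⟩
  · exact fun b hb => (hspec b hb).1
  · intro b hb U φ H i
    rw [← hmass b i]
    unfold aa
    apply integral_congr_ae
    refine Eventually.of_forall fun z => ?_
    simp only
    rcases lt_or_ge z z₀ with h | h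
    · have h1 := hxsmall z (h.le.trans (le_max_right _ _))
      rw [hHH b hb U φ H z (by linarith only [hX8, h1]), one_div_one_div]
    · rw [hψfar i z h, zero_mul, zero_mul]
  · intro b hb U φ H
    rw [hGG b hb U φ H]
    exact hNN b hb
  · intro b hb U φ H c hc
    unfold blockE
    rw [hGG b hb U φ H]
    have h1 : ‖∫ u in (-1 : ℝ)..1, (1 - u ^ 2) ^ 4
        * om (fun z => 1 / m b z - R z) (c + s₀ / 2 + u) ^ 2‖ ≤ M / 8 * |(1 : ℝ) - (-1)| := by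
      apply intervalIntegral.norm_integral_le_of_norm_le_const
      intro u hu
      rw [uIoc_of_le (by norm_num)] at hu
      have hu2 : u ^ 2 ≤ 1 := by nlinarith only [hu.1, hu.2]
      have h2 : (1 - u ^ 2) ^ 4 ≤ 1 := pow_le_one₀ (by linarith only [hu2]) (by nlinarith only [])
      have h3 := hblock b hb (c + s₀ / 2 + u) (by linarith only [hc.1, hu.1])
      rw [Real.norm_eq_abs, abs_of_nonneg (by (clear * -; positivity))]
      calc (1 - u ^ 2) ^ 4 * om (fun z => 1 / m b z - R z) (c + s₀ / 2 + u) ^ 2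
          ≤ 1 * (M / 8) := mul_le_mul h2 h3 (sq_nonneg _) zero_le_one
        _ = M / 8 := one_mul _
    have h2 := le_of_abs_le h1
    have h3 : M / 8 * |(1 : ℝ) - (-1)| = M / 4 := by
      rw [show (1 : ℝ) - (-1) = 2 by norm_num, abs_of_pos two_pos]; ring
    rw [h3] at h2
    exact h2
  · intro b hb U φ H x hx hx4
    have hx0 : 0 < x := lt_of_lt_of_le (by positivity) hx
    have h1 := h_init hT0 H (hspec b hb).2.2.2 hx0 hx4
    have hlog : Z ≤ log (x / ℓ) := by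
      rw [le_log_iff_exp_le (by (clear * - hx0; positivity)), le_div_iff₀ hℓ0, mul_comm]
      exact hx
    rw [hZ b _ (Or.inr hlog), one_div_one_div, div_eq_iff hx0.ne'] at h1
    rw [h1, mul_comm]
  · intro b hb U φ H
    have hb2 : ∀ x ∈ Ioo (0 : ℝ) 1, |x * scal 8 (φ 0) x| ≤ C :=
      hC (m b) (hMB b hb) ℓ hℓ0 (φ 0) (fun x hx => phi_init hT0 H (hspec b hb).2.2.2 hx)
    have h1 : ‖∫ x in (0 : ℝ)..1, x ^ 7 * scal 8 (φ 0) x ^ 2‖ ≤ C ^ 2 * |(1 : ℝ) - 0| := by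
      apply intervalIntegral.norm_integral_le_of_norm_le_const_ae
      have hnull : ∀ᵐ x : ℝ, x ≠ 1 := by
        simp only [ne_eq, ae_iff, Decidable.not_not, ofPred_eq_eq_singleton, measure_singleton]
      filter_upwards [hnull] with x hx1 hx
      rw [uIoc_of_le zero_le_one] at hx
      have hx' : x ∈ Ioo (0 : ℝ) 1 := ⟨hx.1, lt_of_le_of_ne hx.2 hx1⟩
      have h3 : (x * scal 8 (φ 0) x) ^ 2 ≤ C ^ 2 := by
        rw [← sq_abs]
        exact pow_le_pow_left₀ (abs_nonneg _) (hb2 x hx') 2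
      have hx0 := hx'.1
      rw [Real.norm_eq_abs, abs_of_nonneg (by (clear * - hx0; positivity))]
      have e' : x ^ 7 * scal 8 (φ 0) x ^ 2 = x ^ 5 * (x * scal 8 (φ 0) x) ^ 2 := by ring
      rw [e']
      have h5 : x ^ 5 ≤ 1 := pow_le_one₀ hx0.le hx'.2.le
      calc x ^ 5 * (x * scal 8 (φ 0) x) ^ 2 ≤ 1 * C ^ 2 :=
            mul_le_mul h5 h3 (sq_nonneg _) zero_le_one
        _ = C ^ 2 := one_mul _
    have h2 := le_of_abs_le h1
    simpa only [ge_iff_le, sub_zero, abs_one, mul_one] using h2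
  · intro b b' hb hb'
    obtain ⟨i1, i2, i3, i4⟩ := hspec b hb
    obtain ⟨j1, j2, j3, j4⟩ := hspec b' hb'
    have h := U0_lipschitz_L2 (m := m b) (m' := m b') (Za := -Z) (D := Es * ‖b - b'‖) hℓ0
      (hdiff b b') (fun z hz => by rw [hZ b z (Or.inl hz), hZ b' z (Or.inl hz)])
      i1.smooth j1.smooth i2 j2 i3 j3 i4 j4 7
    refine h.trans (le_of_eq ?_)
    rw [neg_neg]
    ring
  · intro b hb x hx hx1
    rw [(hspec b hb).2.2.2 x (by linarith) hx1, chi0_zero hx, zero_mul]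

/-- **The hypothesis `hdata` of the final assembly**, from the directions `g_j` and numbers. -/
theorem hdata_dirs {R ρ : ℝ → ℝ} {Rmin α : ℝ} (hρ : Continuous ρ) (hρ0 : ∀ z, 0 < ρ z)
    (hR : Profile R Rmin α) {p : Polynomial ℝ} {zm zM z₀ : ℝ}
    (hl : ∀ z ≤ zm, R z = p.eval (exp z))
    (hr : ∀ z, zM < z → ContDiffAt ℝ ∞ R z) {psi g : Fin 2 → ℝ → ℝ}
    (hψ : ∀ i, Continuous (psi i)) (hψc : ∀ i, HasCompactSupport (psi i))
    (hψfar : ∀ i z, z₀ ≤ z → psi i z = 0)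
    {za zb Γ₀ Γ₁ Γ₂ E : ℝ}
    (hg : RDirs R ρ psi g za zb Γ₀ Γ₁ Γ₂ E) (hza : zm ≤ za) (hzb : zb ≤ zM)
    (hz₀ : zM + 2 ≤ z₀ - 1)
    {d₁ d₂ D₁ D₂ K P A τ Ns M : ℝ} (hd1 : ∀ z, |deriv R z| ≤ d₁)
    (hd2 : ∀ z, |deriv (deriv R) z| ≤ d₂) (hP0 : 0 ≤ P)
    (hP : ∫ z in Icc (zm - 2) (zM + 2), ρ z ≤ P ^ 2) (hA : 0 ≤ A) (hτ : 0 < τ)
    (hεR : 4 * A * Γ₀ + τ ≤ Rmin / 2) (hD1 : d₁ + (4 * A * Γ₁ + τ) ≤ D₁)
    (hD2 : d₂ + (4 * A * Γ₂ + τ) ≤ D₂)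
    (hK : (2 * (4 * A * Γ₁ + τ) ^ 2 + 2 * (4 * A * Γ₀ + τ) * (4 * A * Γ₂ + τ)
          + 6 * (4 * A * Γ₀ + τ) * (4 * A * Γ₁ + τ) + 2 * (4 * A * Γ₀ + τ) ^ 2) / (Rmin / 2)
        + (4 * (4 * A * Γ₀ + τ) * (4 * A * Γ₁ + τ) * D₁
          + (4 * A * Γ₀ + τ) ^ 2 * (3 * D₁ + D₂)) / (Rmin / 2) ^ 2
        + 2 * (4 * A * Γ₀ + τ) ^ 2 * D₁ ^ 2 / (Rmin / 2) ^ 3 ≤ K)
    (hNs : (4 * A * E + P * K + τ) ^ 2 ≤ Ns / 2) (hM : 0 ≤ M) :
    ∀ (χ : ℝ → ℝ) (X c₁ : ℝ), Cutoff χ X → X ≤ 1 / 8 → exp (c₁ + 5 / 3) ≤ X / 2 →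
      ∃ EA Z T₁ : ℝ, 0 < T₁ ∧ 0 ≤ EA ∧ ∀ s₀ : ℝ, exp (-s₀) ≤ T₁ →
        ∃ (CL : ℝ) (U₀ : (Fin 2 → ℝ) → ℝ → ℝ),
          DataFam χ R ρ psi (exp (-s₀)) s₀ z₀ c₁ A Ns M EA Z CL U₀ ∧
            ∀ b : Fin 2 → ℝ, (∀ i, |b i| ≤ A) → ∀ x : ℝ, 1 / 2 ≤ x → x < 1 → deriv (deriv (U₀ b)) x = 0 := by
  obtain ⟨m, e, hm, hout, hmass, hlin, hes, hec, ⟨B, hMB⟩, hen⟩ :=
    exists_family hρ hρ0 hR hl hr hψ hψc hg hza hzb hd1 hd2 hP0 hP hA hτ hεR hD1 hD2 hK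
  have hRpos : ∀ z, 0 < R z := fun z => hR.Rmin_pos.trans_le (hR.lower z)
  have hR2 : ContDiff ℝ 2 R := hR.smooth.of_le (by norm_num)
  refine hdata_fam hR hψfar (m := m) (e := e) (c₀ := 1 / 2) (B := B) hm ?_ (by norm_num)
    hMB hmass hlin hes ?_ ?_ ?_
  · refine ⟨max (2 - zm) (zM + 2), fun b z hz => hout b z ?_⟩
    rcases hz with h | h
    · left
      have := le_max_left (2 - zm) (zM + 2)
      linarith only [h, this]
    · right
      exact (le_max_right _ _).trans h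
  · intro j
    refine HasCompactSupport.of_support_subset_isCompact
      (isCompact_Icc (a := zm - 2) (b := zM + 2)) ?_
    intro z hz
    by_contra h
    refine hz (hec j z ?_)
    by_contra h'
    push Not at h'
    exact h ⟨h'.1.le, h'.2.le⟩
  · intro b hb
    exact (hen b hb).2.trans hNs
  · intro b hb z hz
    have hm2 : ContDiff ℝ 2 (m b) := contDiff_infty.1 (hm b) 2
    have hmpos : ∀ z, 0 < m b z := fun z => by
      have := (hMB b hb).low z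
      linarith only [this]
    have hw : ContDiff ℝ 2 (fun z => 1 / m b z - R z) :=
      (contDiff_const.div hm2 fun z => (hmpos z).ne').sub hR2
    have h0 : ∀ z, z ≤ zm - 2 ∨ zM + 2 ≤ z → 1 / m b z - R z = 0 := by
      intro z hz
      rw [hout b z hz, one_div_one_div, sub_self]
    rw [om_zero_of hw h0 z (Or.inr (hz₀.trans hz))]
    have : (0 : ℝ) ^ 2 = 0 := by norm_num
    rw [this]
    (clear * - hM; positivity)

end P264.B

end

section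

open MeasureTheory Set Filter Real
open scoped ContDiff Topology

namespace P264.B

variable {R ρ χ : ℝ → ℝ} {Rmin α z₀ rf E₃ : ℝ}

theorem final_short {psi : Fin 2 → ℝ → ℝ} {lam : Fin 2 → ℝ}
    {ν κ₁ κ₂ δ κ C₀ e₁ e₂ Kr Kp Kq K₂ Kinf η M Ns A Cε dd CC : ℝ}
    (hdd : 0 < dd) (hCC : 0 ≤ CC)
    (hC : Cert R ρ psi lam ν κ₁ κ₂ Rmin α δ κ C₀ e₁ e₂ Kr Kp Kq K₂ Kinf z₀)
    (hF : FarCert R ρ z₀ rf E₃)
    -- the energy inequality of M3, for this `η`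
    (henergy : ∀ (U₀ : ℝ → ℝ) (U φ : ℝ → ℝ → ℝ) (χ : ℝ → ℝ) (T X s : ℝ),
      IsFlowU 8 T U₀ U φ → Cutoff χ X → exp (-s) ≤ T → Small R φ T X η s →
      exp (z₀ - s / 2) ≤ X / 2 → NN ρ (GG χ R φ T s) ≤ Ns →
      2 * ∫ z, GS χ R φ T s z * Top ρ (GG χ R φ T s) z ≤
        -dd * NN ρ (GG χ R φ T s) + CC * ∑ i, aa (psi i) R φ T s ^ 2
          + Cε * (e₁ ^ 2 + ecut2 χ R ρ φ T s))
    -- the scalar inequality of M3, for this `η`, combined with `NN < Ns`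
    (hscalar : ∀ (U₀ : ℝ → ℝ) (U φ : ℝ → ℝ → ℝ) (χ : ℝ → ℝ) (T X s : ℝ),
      IsFlowU 8 T U₀ U φ → Cutoff χ X → exp (-s) ≤ T → Small R φ T X η s →
      exp (z₀ - s / 2) ≤ X / 2 → NN ρ (GG χ R φ T s) ≤ Ns → ∀ i,
      |aS (psi i) R φ T s - lam i * aa (psi i) R φ T s| < lam i * A)
    -- numbers
    (hη : 0 ≤ η) (hη2 : η ≤ 1 / 20) (hη3 : η ^ 2 ≤ 60 * M) (hM : 0 < M) (hNs : 0 < Ns)
    (hNsM : Ns / rf ≤ M / 4) (hKinf : Kinf * √Ns ≤ η)
    (hMη : 22 / 10 * √M < 79 / 100 * η) (hE : 1320000 * E₃ ≤ M / 16)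
    (hA : 0 < A) (hCε : 0 ≤ Cε)
    (hnum : (2 * CC * A ^ 2 + Cε * e₁ ^ 2) / dd ≤ 3 / 4 * Ns) (hα : α * (1 + η) < 1)
    (hαR : 0 < α)
    -- data, for every small `T`
    (hdata : ∀ (χ : ℝ → ℝ) (X c₁ : ℝ), Cutoff χ X → X ≤ 1 / 8 → exp (c₁ + 5 / 3) ≤ X / 2 →
      ∃ EA Z T₁ : ℝ, 0 < T₁ ∧ 0 ≤ EA ∧ ∀ s₀ : ℝ, exp (-s₀) ≤ T₁ →
        ∃ (CL : ℝ) (U₀ : (Fin 2 → ℝ) → ℝ → ℝ),
          DataFam χ R ρ psi (exp (-s₀)) s₀ z₀ c₁ A Ns M EA Z CL U₀ ∧
            ∀ b : Fin 2 → ℝ, (∀ i, |b i| ≤ A) → ∀ x : ℝ, 1 / 2 ≤ x → x < 1 → deriv (deriv (U₀ b)) x = 0)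
    {ε : ℝ} (hε : 0 < ε) :
    ¬ (∀ U₀ : ℝ → ℝ, IsInit U₀ → (∀ x : ℝ, 1 / 2 ≤ x → x < 1 → deriv (deriv U₀) x = 0) →
      ∀ T : ℝ, 0 < T → T < ε → ∃ U φ : ℝ → ℝ → ℝ, IsFlowU 8 T U₀ U φ) := by
  intro hL
  have hR := hC.profile
  have hρ := hC.weight
  -- the cut-off and the constants
  obtain ⟨X, hXdef⟩ : ∃ X : ℝ, X = 1 / 8 := ⟨_, rfl⟩
  have hX0 : 0 < X := by rw [hXdef]; norm_num
  have hX1 : X < 1 := by rw [hXdef]; norm_num
  obtain ⟨χ, hχ⟩ := exists_cutoff_far hX0 hX1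
  obtain ⟨c₁, hc₁⟩ : ∃ c₁ : ℝ, exp (c₁ + 5 / 3) = X / 2 :=
    ⟨log (X / 2) - 5 / 3, by rw [sub_add_cancel, exp_log (by (clear * - hXdef; positivity))]⟩
  obtain ⟨EA, Z, T₁, hT₁, hEA, hdat⟩ := hdata χ X c₁ hχ hXdef.le hc₁.le
  set a : ℝ := exp (c₁ - 1) with hadef
  have ha : 0 < a := exp_pos _
  have haX : a ≤ X / 2 := by
    rw [← hc₁]
    exact exp_le_exp.2 (by linarith only [])
  have hab : a < 1 / 4 := by
    rw [hXdef] at haX
    linarith only [haX]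
  have hcpos : 0 < a * Rmin := mul_pos ha hR.Rmin_pos
  obtain ⟨C, hC0, houter⟩ := outer_ctl ha hab (by norm_num) hEA hcpos
  obtain ⟨K, hK, hKb⟩ := outer_block hR ha hC0 hχ
  obtain ⟨Kc, hKc, hKcb⟩ := ecut_bound hρ hR hC0 hχ
  obtain ⟨CR, hCR'⟩ := hR.right
  have hCR : ∀ z, 0 ≤ z → |R z - α| ≤ CR * exp (-2 * z) := by
    intro z hz
    have h1 := hCR' 0 (by norm_num) z hz
    rwa [iteratedDeriv_zero] at h1
  have hCR0 : 0 ≤ CR := by
    have h1 := hCR 0 le_rfl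
    rw [mul_zero, exp_zero, mul_one] at h1
    exact (abs_nonneg _).trans h1
  obtain ⟨s₀, g1, g2, g3, g4, g5, g6, g7, g8, g9, g10, g11, g12⟩ := fa_choose (z₀ := z₀)
    (T₁ := min T₁ (ε / 2)) (C := C) (c := a * Rmin) (a := a) (Z := Z) (c₁ := c₁) (X := X) (CR := CR)
    (M := M) (η := η) (K := K) (Cε := Cε) (Kc := Kc) (ν := ν) (Ns := Ns)
    (lt_min hT₁ (half_pos hε)) hcpos ha hX0 hρ.nu.1 hMη hM hNs
  obtain ⟨CL, U₀, hD, hflat⟩ := hdat s₀ (g1.trans (min_le_left _ _))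
  obtain ⟨T, hTdef⟩ : ∃ T : ℝ, exp (-s₀) = T := ⟨_, rfl⟩
  have hT0 : 0 < T := hTdef ▸ exp_pos _
  rw [hTdef] at g1 g2 g3 g4 g5 g10 g11 hD
  have hTs : ∀ s, s₀ ≤ s → exp (-s) ≤ T := by
    intro s hs
    rw [← hTdef]
    exact exp_le_exp.2 (by linarith only [hs])
  have hg9 : ∀ s, s₀ ≤ s → exp (z₀ - s / 2) ≤ X / 2 := by
    intro s hs
    refine le_trans (exp_le_exp.2 ?_) g9
    linarith only [hs]
  -- the flows
  have hex : ∀ b : Fin 2 → ℝ, (∀ i, |b i| ≤ A) → ∃ U φ : ℝ → ℝ → ℝ, IsFlowU 8 T (U₀ b) U φ :=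
    fun b hb => hL (U₀ b) (hD.init b hb) (hflat b hb) T hT0
      (lt_of_le_of_lt (g1.trans (min_le_right _ _)) (half_lt_self hε))
  choose! U φ hfl using hex
  -- control of the outer region
  have hout : ∀ b, (∀ i, |b i| ≤ A) → OuterCtl T a (1 / 4) C (φ b) := by
    intro b hb
    refine houter T hT0 g2 g3 (U₀ b) (U b) (φ b) (hfl b hb)
      (hD.energy b hb (U b) (φ b) (hfl b hb)) ?_
    intro x hx
    rw [hD.far_eq b hb (U b) (φ b) (hfl b hb) x (g4.trans hx.1) hx.2]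
    exact mul_le_mul hx.1 (hR.lower _) hR.Rmin_pos.le (ha.le.trans hx.1)
  have hηo : 0 ≤ C * T ^ (1 / 4 : ℝ) / a + 2 * CR * T / a ^ 2 := by (clear * - hC0 hT0 hCR0; positivity)
  -- the trap estimate
  have htrap : ∀ b, (∀ i, |b i| ≤ A) → ∀ σ, s₀ ≤ σ →
      (∀ s ∈ Icc s₀ σ, ∀ i, |aa (psi i) R (φ b) T s| ≤ A) →
      NN ρ (GG χ R (φ b) T σ) < Ns ∧ Small R (φ b) T X η σ := by
    intro b hb σ hσ hbox
    have hφ := hfl b hb
    have ho := hout b hb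
    refine trap_estimate (ηo := C * T ^ (1 / 4 : ℝ) / a + 2 * CR * T / a ^ 2)
      (Aout := K) (Kε := Kc * exp (-ν * s₀)) hC hF hdd hCC hφ hχ hTdef hη hη2 hη3 hM hNs hNsM hKinf
      hηo g10 hE hc₁.le g6 (hD.NN_le b hb _ _ hφ) (hD.block_le b hb _ _ hφ)
      (NN_cont hρ hR hφ hχ hTdef) ?_ hK ?_ g11 hCε ?_ ?_ hA.le hnum g12 hσ hbox
    · intro s hs z hz hx
      refine outer_sup hR hCR hφ hTdef g5 le_rfl ho ?_ hs ⟨?_, ?_⟩
      · intro x hx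
        exact hD.far_eq b hb _ _ hφ x (g4.trans hx.1) hx.2
      · rw [hadef]
        unfold xx
        exact exp_le_exp.2 (by linarith only [hz])
      · refine hx.trans ?_
        rw [hXdef]
        norm_num
    · intro s hs c hc
      refine hKb T hT0 g2 (U₀ b) (U b) (φ b) hφ (1 / 4) ?_ (by norm_num) ho c s (hTs s hs) ?_ ?_ ?_
      · rw [hXdef]
        norm_num
      · rw [hadef]
        exact exp_le_exp.2 (by linarith only [hc.1])
      · rw [← hc₁]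
        exact exp_le_exp.2 (by linarith only [hc.2])
      · linarith only [g8, hs, hc.1]
    · intro σ' hσ'
      refine hKcb T hT0 g2 (U₀ b) (U b) (φ b) hφ ?_ a (1 / 4) ha haX ?_ (by norm_num) ho s₀ σ'
        hTdef hσ' g7
      · intro x hx
        have hx4 : x ≤ 1 / 4 := hx.2.trans (by rw [hXdef]; norm_num)
        have hx0 : 0 ≤ x := ha.le.trans (haX.trans hx.1)
        rw [hD.far_eq b hb _ _ hφ x (g4.trans (haX.trans hx.1)) hx4]
        calc x * R (log (x / √T)) ≤ x * 1 := mul_le_mul_of_nonneg_left (hR.upper _) hx0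
          _ ≤ 1 := by linarith only [hx4]
      · rw [hXdef]
        norm_num
    · intro s hs hsm hN
      exact henergy (U₀ b) (U b) (φ b) χ T X s hφ hχ (hTs s hs) hsm (hg9 s hs) hN
  -- the trap lemma
  have hsupp : ∀ i, ∀ s, s₀ ≤ s → ∀ z ∈ tsupport (psi i), xx s z < 1 := fun i s hs =>
    fa_supp (fun z hz => hC.psi_far i z hz) hs g9 hXdef.le
  have hjoint : ContinuousOn (fun p : ℝ × (Fin 2 → ℝ) => fun i => aa (psi i) R (φ p.2) T p.1)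
      (Ici s₀ ×ˢ {b | ∀ i, |b i| ≤ A}) := by
    have hz0 : z₀ < s₀ / 2 := by
      have h1 : exp (z₀ - s₀ / 2) < exp 0 := by
        rw [exp_zero]
        linarith only [hXdef, g9]
      have h2 := exp_lt_exp.1 h1
      linarith only [h2]
    refine aa_joint hC.psi_smooth hC.psi_supp hC.psi_far hR.smooth.continuous
      (fun z => hR.Rmin_pos.trans_le (hR.lower z)) hTdef hz0 hfl (abs_nonneg CL) ?_
    intro b hb b' hb'
    rw [mul_pow, sq_abs]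
    exact hD.lip b b' hb hb'
  obtain ⟨b, hb, hball⟩ := Trap.trap_deriv hA (Trap.isTime_Ici s₀)
    (fun s b i => aa (psi i) R (φ b) T s) hjoint
    (by
      intro b hb
      funext i
      exact hD.aa_eq b hb _ _ (hfl b hb) i)
    (by
      intro b hb s hs hbox i hi
      have hs' : s₀ ≤ s := hs
      obtain ⟨hN, hsm⟩ := htrap b hb s hs' hbox
      refine ⟨aS (psi i) R (φ b) T s, ?_, ?_⟩
      · exact (aa_deriv hR (hfl b hb) (hTs s hs') (hC.psi_smooth i) (hC.psi_supp i)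
          (hsupp i s hs')).mono Ioi_subset_Ici_self
      · have h1 := hscalar (U₀ b) (U b) (φ b) χ T X s (hfl b hb) hχ (hTs s hs') hsm (hg9 s hs')
          hN.le i
        have h2 := hC.lam_pos i
        set y := aa (psi i) R (φ b) T s with hy
        have hi' : |y| = A := hi
        have h3 : y * y = A * A := by
          rw [← abs_mul_abs_self y, hi']
        have h4 : |(aS (psi i) R (φ b) T s - lam i * y) * y| < lam i * A * A := by
          rw [abs_mul, hi']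
          exact mul_lt_mul_of_pos_right h1 hA
        have h5 := (abs_lt.1 h4).1
        have h6 : (aS (psi i) R (φ b) T s - lam i * y) * y =
            aS (psi i) R (φ b) T s * y - lam i * (y * y) := by ring
        rw [h6, h3] at h5
        show 0 < aS (psi i) R (φ b) T s * y
        linarith only [h5])
  refine final_contra hR (hfl b hb) hTdef hX0 hX1 hη hα fun s hs => ?_
  exact (htrap b hb s hs fun s' hs' i => hball s' hs'.1 i).2

theorem short_of_cert {R ρ : ℝ → ℝ} {psi : Fin 2 → ℝ → ℝ} {lam : Fin 2 → ℝ}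
    {ν κ₁ κ₂ Rmin α z₀ rf E₃ δ κ C₀ e₁ e₂ Kr Kp Kq K₂ Kinf η M Ns A : ℝ}
    (hC : Cert R ρ psi lam ν κ₁ κ₂ Rmin α δ κ C₀ e₁ e₂ Kr Kp Kq K₂ Kinf z₀)
    (hF : FarCert R ρ z₀ rf E₃)
    -- numbers of the far field
    (hη : 0 ≤ η) (hη2 : η ≤ 1 / 20) (hη3 : η ^ 2 ≤ 60 * M) (hM : 0 < M) (hNs : 0 < Ns)
    (hNsM : Ns / rf ≤ M / 4) (hKinf : Kinf * √Ns ≤ η)
    (hMη : 22 / 10 * √M < 79 / 100 * η) (hE : 1320000 * E₃ ≤ M / 16)
    (hA : 0 < A) (hα : α * (1 + η) < 1) (hα0 : 0 < α)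
    -- numbers of the near field
    (hκη : η * (2 + η) ≤ κ)
    (hKK : Kinf ^ 2 * Ns * K₂ + η ^ 2 / 1000000 ≤ κ * δ / 8)
    (hCq : 285 * C₀ * Kq ^ 2 * Ns ≤ δ)
    (hnum : (5 * C₀ * A ^ 2 + 2 / κ * e₁ ^ 2) / (7 / 4 * δ) ≤ 3 / 4 * Ns)
    (hscal : ∀ i, 4 / 3 * (Kr * √Ns + Kp * Ns) + e₂ < lam i * A)
    -- data, for every small `T`
    (hdata : ∀ (χ : ℝ → ℝ) (X c₁ : ℝ), Cutoff χ X → X ≤ 1 / 8 → exp (c₁ + 5 / 3) ≤ X / 2 →
      ∃ EA Z T₁ : ℝ, 0 < T₁ ∧ 0 ≤ EA ∧ ∀ s₀ : ℝ, exp (-s₀) ≤ T₁ →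
        ∃ (CL : ℝ) (U₀ : (Fin 2 → ℝ) → ℝ → ℝ),
          DataFam χ R ρ psi (exp (-s₀)) s₀ z₀ c₁ A Ns M EA Z CL U₀ ∧
            ∀ b : Fin 2 → ℝ, (∀ i, |b i| ≤ A) → ∀ x : ℝ, 1 / 2 ≤ x → x < 1 → deriv (deriv (U₀ b)) x = 0)
    {ε : ℝ} (hε : 0 < ε) :
    ¬ (∀ U₀ : ℝ → ℝ, IsInit U₀ → (∀ x : ℝ, 1 / 2 ≤ x → x < 1 → deriv (deriv U₀) x = 0) →
      ∀ T : ℝ, 0 < T → T < ε → ∃ U φ : ℝ → ℝ → ℝ, IsFlowU 8 T U₀ U φ) := by
  have hRp : ∀ z, 0 < R z := fun z => hC.profile.Rmin_pos.trans_le (hC.profile.lower z)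
  have hKr : 0 ≤ Kr := (integral_nonneg fun z => by
    have := hRp z
    (clear * - this; positivity)).trans (hC.H3r 0)
  have hbsq : ∀ z, 0 ≤ bsq ρ z := fun z => by
    unfold bsq
    exact integral_nonneg fun s => div_nonneg (sq_nonneg _) (hC.weight.pos s).le
  have hKp : 0 ≤ Kp := (integral_nonneg fun z =>
    div_nonneg (mul_nonneg (abs_nonneg _) (hbsq z)) (hRp z).le).trans (hC.H3p 0)
  have hδ := hC.δ_pos
  have hκ := hC.κ_pos
  have hC0 := hC.C₀_nonneg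
  have hη4 : η ≤ 1 / 4 := by linarith only [hη2]
  refine final_short (dd := 7 / 4 * δ) (CC := 5 / 2 * C₀) (Cε := 2 / κ) (by (clear * - hδ; positivity))
    (by (clear * - hC0; positivity)) hC hF ?_ ?_ hη hη2 hη3 hM hNs hNsM hKinf hMη hE hA (by positivity) ?_ hα hα0
    hdata hε
  · intro U₀ U φ χ T X s hφ hχ hs hsm hz hN
    have h := energy_ineq hC hφ hχ hs hη hη4 hκη hKK hCq hN hsm hz
    linarith only [h]
  · intro U₀ U φ χ T X s hφ hχ hs hsm hz hN i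
    have h := scalar_bound hC hφ hχ hs hη hη4 hsm hz i
    have h1 : √(NN ρ (GG χ R φ T s)) ≤ √Ns := sqrt_le_sqrt hN
    have h2 : Kr * √(NN ρ (GG χ R φ T s)) ≤ Kr * √Ns := mul_le_mul_of_nonneg_left h1 hKr
    have h3 : Kp * NN ρ (GG χ R φ T s) ≤ Kp * Ns := mul_le_mul_of_nonneg_left hN hKp
    have h4 := hscal i
    linarith only [h4, h3, h2, h]
  · have : 2 * (5 / 2 * C₀) * A ^ 2 = 5 * C₀ * A ^ 2 := by ring
    rw [this]
    exact hnum

end P264.B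

end

section

open MeasureTheory Set Filter Real
open scoped ContDiff Topology

namespace P264.Prof

open P264.B

/-- **The hypothesis `hdata`**, with the Fubini-Study metric outside. -/
theorem hdata8s :
    ∀ (χ : ℝ → ℝ) (X c₁ : ℝ), Cutoff χ X → X ≤ 1 / 8 → exp (c₁ + 5 / 3) ≤ X / 2 →
      ∃ EA Z T₁ : ℝ, 0 < T₁ ∧ 0 ≤ EA ∧ ∀ s₀ : ℝ, exp (-s₀) ≤ T₁ →
        ∃ (CL : ℝ) (U₀ : (Fin 2 → ℝ) → ℝ → ℝ),
          DataFam χ Rz rhoz psi8 (exp (-s₀)) s₀ 12 c₁ (18 / 10 ^ 9) (25 / 10 ^ 9)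
            (144 / 10 ^ 7) EA Z CL U₀ ∧
            ∀ b : Fin 2 → ℝ, (∀ i, |b i| ≤ (18 / 10 ^ 9 : ℝ)) → ∀ x : ℝ, 1 / 2 ≤ x → x < 1 →
              deriv (deriv (U₀ b)) x = 0 :=
  hdata_dirs (Rmin := 1157 / 10000) (α := alpha8) (p := pleft) (zm := Real.log (1 / 2))
    (zM := Real.log 256) (d₁ := 11 / 10) (d₂ := 51 / 10) (D₁ := 6 / 5) (D₂ := 26 / 5)
    (K := 1 / 10 ^ 6) (P := 25) (τ := 1 / 10 ^ 6) rhoz_continuous rhoz_pos profile8 Rz_left'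
    Rz_smooth_right (fun i => (psi8_smooth i).continuous) psi8_supp psi8_far rdirs8
    (Real.log_nonpos (by norm_num) (by norm_num))
    (Real.log_le_log (by norm_num) (by norm_num))
    log2_bounds.2 Rz_d1 Rz_d2 (by norm_num) rhoz_integral (by norm_num) (by norm_num)
    (by norm_num) (by norm_num) (by norm_num) (by (clear * -; norm_num)) (by norm_num) (by norm_num)

/-- **Arbitrarily short existence times**, one-dimensional form. -/
theorem short8 {ε : ℝ} (hε : 0 < ε) : ∃ U₀ : ℝ → ℝ, IsInit U₀ ∧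
    (∀ x : ℝ, 1 / 2 ≤ x → x < 1 → deriv (deriv U₀) x = 0) ∧
    ∃ T : ℝ, 0 < T ∧ T < ε ∧ ∀ U φ : ℝ → ℝ → ℝ, ¬ IsFlowU 8 T U₀ U φ := by
  have hsq : √(25 / 10 ^ 9 : ℝ) ≤ 1582 / 10 ^ 7 := by
    rw [Real.sqrt_le_left (by norm_num)]
    norm_num
  have hM : √(144 / 10 ^ 7 : ℝ) < 38 / 10 ^ 4 := by
    rw [Real.sqrt_lt' (by norm_num)]
    norm_num
  have hα := alpha8_bounds
  have key := short_of_cert (η := 12 / 1000) (M := 144 / 10 ^ 7) (Ns := 25 / 10 ^ 9)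
    (A := 18 / 10 ^ 9) (cert8 P264.H3.h3block) farCert8 (by norm_num) (by norm_num) (by norm_num)
    (by norm_num) (by norm_num) (by norm_num) (by linarith only [hsq]) (by linarith only [hM])
    (by norm_num) (by norm_num) (by linarith only [hα]) (by linarith only [hα])
    (by norm_num) (by norm_num) (by norm_num) (by norm_num)
    (by
      intro i
      have := lam8_ge i
      linarith only [hsq, this]) hdata8s hε
  by_contra hcon
  refine key fun U₀ h1 h2 T hT hTε => ?_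
  by_contra hno
  exact hcon ⟨U₀, h1, h2, T, hT, hTε, fun U φ hf => hno ⟨U, φ, hf⟩⟩

end P264.Prof

end
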